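import Mathlib
import Vale.Agent.Lib.P045.InterMain
import Vale.Agent.Lib.P045.Exchange

namespace Vale.Agent.Results.P045.AllCases

/-- Two bounds for `r`-partite `r`-uniform hypergraphs of maximum degree at most `D`, stated
together. An edge is a function `e : Fin r → α`; its vertex in part `i` is the pair `(i, e i)`.
(A) Ryser's inequality `|C| ≤ (r - 1) |M|` for a vertex cover `C` and a matching `M`:
in general when `D ≤ 3, r ≥ 4` or `D ≤ 4, r ≥ 6` or `D ≤ 5, r ≥ 13`; and for intersecting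
hypergraphs with `r ≥ 6` when `D ≤ 6`, or `D ≤ 7` and `r ≥ 22`, or there are at most `3 r - 2`
edges.
(B) The bound `(r (D - 1) + 1) |C| + |M| ≤ r (r (D - 1) + 1) |M|`, that is
`|C| ≤ (r - 1 / (r (D - 1) + 1)) |M|`, when `r ≥ 6` and `D ≤ 6`, or `r ≥ 22` and `D ≤ 7`, or
when every intersecting subfamily of the hypergraph has a cover with at most `r - 1`
vertices. -/
theorem result (r D : ℕ) {α : Type*} [DecidableEq α]
    (E : Finset (Fin r → α))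
    (hdeg : ∀ (i : Fin r) (a : α), (E.filter (fun e => e i = a)).card ≤ D) :
    (((D ≤ 3 ∧ 4 ≤ r) ∨ (D ≤ 4 ∧ 6 ≤ r) ∨ (D ≤ 5 ∧ 13 ≤ r) ∨
        ((∀ e ∈ E, ∀ f ∈ E, ∃ i, e i = f i) ∧ 6 ≤ r ∧
          (D ≤ 6 ∨ (D ≤ 7 ∧ 22 ≤ r) ∨ E.card + 2 ≤ 3 * r))) →
      ∃ (C : Finset (Fin r × α)) (M : Finset (Fin r → α)),
        (∀ e ∈ E, ∃ i, (i, e i) ∈ C) ∧ M ⊆ E ∧
        (∀ e ∈ M, ∀ f ∈ M, e ≠ f → ∀ i, e i ≠ f i) ∧
        C.card ≤ (r - 1) * M.card) ∧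
    (0 < r →
      ((6 ≤ r ∧ D ≤ 6) ∨ (22 ≤ r ∧ D ≤ 7) ∨
        (∀ F : Finset (Fin r → α), F ⊆ E → (∀ e ∈ F, ∀ f ∈ F, ∃ i, e i = f i) →
          ∃ C : Finset (Fin r × α), (∀ e ∈ F, ∃ i, (i, e i) ∈ C) ∧ C.card ≤ r - 1)) →
      ∃ (C : Finset (Fin r × α)) (M : Finset (Fin r → α)),
        (∀ e ∈ E, ∃ i, (i, e i) ∈ C) ∧ M ⊆ E ∧
        (∀ e ∈ M, ∀ f ∈ M, e ≠ f → ∀ i, e i ≠ f i) ∧
        (r * (D - 1) + 1) * C.card + M.card ≤ r * (r * (D - 1) + 1) * M.card) :=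
  ⟨fun hyp => Vale.Agent.Lib.P045.ryser_combined D E hdeg hyp,
    fun hr hyp => Vale.Agent.Lib.P045.exchange_main hr D E hdeg hyp⟩

end Vale.Agent.Results.P045.AllCases
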