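import Mathlib
import Vale.Agent.Lib.P045.InterMain

namespace Vale.Agent.Results.P045.Combined

/-- Ryser's inequality for `r`-partite `r`-uniform hypergraphs of maximum degree at most `D`:
in general when `D ≤ 3, r ≥ 4` or `D ≤ 4, r ≥ 6` or `D ≤ 5, r ≥ 13`; and for intersecting
hypergraphs with `r ≥ 6` when `D ≤ 6`, or `D ≤ 7` and `r ≥ 22`, or there are at most `3 r - 2`
edges. An edge is a function `e : Fin r → α`; its vertex in part `i` is the pair `(i, e i)`. -/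
theorem result (r D : ℕ) {α : Type*} [DecidableEq α]
    (E : Finset (Fin r → α))
    (hdeg : ∀ (i : Fin r) (a : α), (E.filter (fun e => e i = a)).card ≤ D)
    (hyp : (D ≤ 3 ∧ 4 ≤ r) ∨ (D ≤ 4 ∧ 6 ≤ r) ∨ (D ≤ 5 ∧ 13 ≤ r) ∨
      ((∀ e ∈ E, ∀ f ∈ E, ∃ i, e i = f i) ∧ 6 ≤ r ∧
        (D ≤ 6 ∨ (D ≤ 7 ∧ 22 ≤ r) ∨ E.card + 2 ≤ 3 * r))) :
    ∃ (C : Finset (Fin r × α)) (M : Finset (Fin r → α)),
      (∀ e ∈ E, ∃ i, (i, e i) ∈ C) ∧ M ⊆ E ∧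
      (∀ e ∈ M, ∀ f ∈ M, e ≠ f → ∀ i, e i ≠ f i) ∧
      C.card ≤ (r - 1) * M.card :=
  Vale.Agent.Lib.P045.ryser_combined D E hdeg hyp

end Vale.Agent.Results.P045.Combined
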