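import Mathlib
import Vale.Agent.Lib.P045.Exchange

namespace Vale.Agent.Results.P045.ExchangeBound

/-- A bound below `r ν` for `r`-partite `r`-uniform hypergraphs of maximum degree at most `D`:
there are a vertex cover `C` and a matching `M` with
`(r (D - 1) + 1) |C| + |M| ≤ r (r (D - 1) + 1) |M|`, that is `|C| ≤ (r - 1 / (r (D - 1) + 1)) |M|`,
when `r ≥ 6` and `D ≤ 6`, or `r ≥ 22` and `D ≤ 7`, or when every intersecting subfamily of the
hypergraph has a cover with at most `r - 1` vertices. An edge is a function `e : Fin r → α`;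
its vertex in part `i` is the pair `(i, e i)`. -/
theorem result (r D : ℕ) (hr : 0 < r) {α : Type*} [DecidableEq α]
    (E : Finset (Fin r → α))
    (hdeg : ∀ (i : Fin r) (a : α), (E.filter (fun e => e i = a)).card ≤ D)
    (hyp : (6 ≤ r ∧ D ≤ 6) ∨ (22 ≤ r ∧ D ≤ 7) ∨
      (∀ F : Finset (Fin r → α), F ⊆ E → (∀ e ∈ F, ∀ f ∈ F, ∃ i, e i = f i) →
        ∃ C : Finset (Fin r × α), (∀ e ∈ F, ∃ i, (i, e i) ∈ C) ∧ C.card ≤ r - 1)) :
    ∃ (C : Finset (Fin r × α)) (M : Finset (Fin r → α)),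
      (∀ e ∈ E, ∃ i, (i, e i) ∈ C) ∧ M ⊆ E ∧
      (∀ e ∈ M, ∀ f ∈ M, e ≠ f → ∀ i, e i ≠ f i) ∧
      (r * (D - 1) + 1) * C.card + M.card ≤ r * (r * (D - 1) + 1) * M.card :=
  Vale.Agent.Lib.P045.exchange_main hr D E hdeg hyp

end Vale.Agent.Results.P045.ExchangeBound
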