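import Mathlib
import Vale.Agent.Lib.P045.InterMain

namespace Vale.Agent.Results.P045.InterDegSix

/-- Ryser's conjecture for intersecting `r`-partite `r`-uniform hypergraphs, `r ≥ 6`, in three
cases: maximum degree at most six; `r ≥ 22` and maximum degree at most seven; at most `3 r - 2`
edges. An edge is a function `e : Fin r → α`; its vertex in part `i` is the pair `(i, e i)`. -/
theorem result (r : ℕ) (hr : 6 ≤ r) {α : Type*} [DecidableEq α]
    (E : Finset (Fin r → α))
    (hint : ∀ e ∈ E, ∀ f ∈ E, ∃ i, e i = f i)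
    (hyp : (∀ (i : Fin r) (a : α), (E.filter (fun e => e i = a)).card ≤ 6) ∨
      (22 ≤ r ∧ ∀ (i : Fin r) (a : α), (E.filter (fun e => e i = a)).card ≤ 7) ∨
      E.card + 2 ≤ 3 * r) :
    ∃ C : Finset (Fin r × α), (∀ e ∈ E, ∃ i, (i, e i) ∈ C) ∧ C.card ≤ r - 1 :=
  Vale.Agent.Lib.P045.inter_main hr E hint hyp

end Vale.Agent.Results.P045.InterDegSix
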